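import Vale.Agent.P307.Defs

/-! Members with frames: systems of strong substructures indexed by the finite subsets of a set. -/

universe u

open FirstOrder Cardinal Set Function Language

namespace Vale.Agent.P307.Fm

variable {L : Language.{u, u}} {M : Type u} [L.Structure M]

/-- `A` is a frame in `S`: substructures `A s` of `S` with the property `str` for the finite subsets
`s` of `X`, such that `A s` and `A t` intersect in `A (s ∩ t)`, `A s ≤ A t` only if `s ⊆ t`, and the
only substructures of `A s` with `str` which contain all `A t` for the proper subsets `t` of `s` are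
`A s` and possibly one of these `A t` (if `s` has one element: nothing lies strictly between `A ∅`
and `A s`; if `s` has two or more: `A s` is minimal above the `A t`). -/
def FrameIn (str : L.Substructure M → Prop) (S : L.Substructure M) {X : Type u}
    (A : Finset X → L.Substructure M) : Prop :=
  (∀ s, str (A s) ∧ A s ≤ S) ∧
    (∀ s t r : Finset X, (∀ x, x ∈ r ↔ x ∈ s ∧ x ∈ t) → A s ⊓ A t = A r) ∧
    (∀ s t, A s ≤ A t → s ⊆ t) ∧
    ∀ s V, str V → V ≤ A s → (∀ t, t ⊂ s → A t ≤ V) → V = A s ∨ ∃ t, t ⊂ s ∧ V = A t

/-- `A` is a frame of `S`: a frame in `S` whose union is `S`. -/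
def FrameOf (str : L.Substructure M → Prop) (S : L.Substructure M) {X : Type u}
    (A : Finset X → L.Substructure M) : Prop :=
  FrameIn str S A ∧ ∀ a ∈ S, ∃ s, a ∈ A s

/-- Every `S` with at least `l` elements has a frame, every frame in such an `S` is part of a frame
of every `T` containing `S`, and any two frames of `M` are conjugate under the automorphisms of `M`
with `aut`. -/
def HasFrames (l : Cardinal.{u}) (str : L.Substructure M → Prop) (aut : (M ≃[L] M) → Prop) :
    Prop :=
  (∀ S : L.Substructure M, str S → l ≤ #S →
      ∃ (X : Type u) (A : Finset X → L.Substructure M), FrameOf str S A) ∧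
    (∀ S T : L.Substructure M, str S → str T → l ≤ #S → S ≤ T →
      ∀ (X : Type u) (A : Finset X → L.Substructure M), FrameIn str S A →
        ∃ (Y : Type u) (j : X ↪ Y) (B : Finset Y → L.Substructure M),
          FrameOf str T B ∧ ∀ s, B (s.map j) = A s) ∧
    ∀ (X Y : Type u) (A : Finset X → L.Substructure M) (B : Finset Y → L.Substructure M),
      FrameOf str ⊤ A → FrameOf str ⊤ B →
        ∃ (σ : M ≃[L] M) (j : X ↪ Y), aut σ ∧ ∀ s, (A s).map σ.toHom = B (s.map j)

/-- The strong substructures of `M` with at least `l` elements have frames. -/
def IsFramed (K : AEC L) (l : Cardinal.{u}) (M : Type u) [L.Structure M] : Prop :=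
  HasFrames l (fun S : L.Substructure M => K.le S) fun _ => True

end Vale.Agent.P307.Fm
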