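import Vale.Agent.P307.Ew.Code
import Vale.Agent.P307.Fm.Defs

/-! The Hanf number for members with frames at a categoricity cardinal. -/

universe u

open FirstOrder Cardinal Set Function Language

namespace Vale.Agent.P307.Fm

open Gw (upEquiv)
open Ew (mapIso dnIso map_symm_map map_map_symm)

section

variable {L L' : Language.{u, u}} {M M' : Type u} [L.Structure M] [L'.Structure M']
  {str : L.Substructure M → Prop} {str' : L'.Substructure M' → Prop}

theorem frameIn_iso (E : L.Substructure M ≃o L'.Substructure M') (hstr : ∀ S, str' (E S) ↔ str S)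
    {S : L.Substructure M} {X : Type u} {A : Finset X → L.Substructure M} :
    FrameIn str' (E S) (fun s => E (A s)) ↔ FrameIn str S A := by
  unfold FrameIn
  refine and_congr ?_ (and_congr ?_ (and_congr ?_ ?_))
  · exact forall_congr' fun s => and_congr (hstr _) E.le_iff_le
  · refine forall_congr' fun s => forall_congr' fun t => forall_congr' fun r => ?_
    rw [← E.map_inf, E.injective.eq_iff]
  · exact forall_congr' fun s => forall_congr' fun t => by rw [E.le_iff_le]
  · refine forall_congr' fun s => ?_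
    rw [E.surjective.forall]
    refine forall_congr' fun V => ?_
    rw [hstr, E.le_iff_le, E.injective.eq_iff]
    refine imp_congr Iff.rfl (imp_congr Iff.rfl (imp_congr ?_ (or_congr Iff.rfl ?_)))
    · exact forall_congr' fun t => by rw [E.le_iff_le]
    · exact exists_congr fun t => by rw [E.injective.eq_iff]

theorem frameOf_iso (E : L.Substructure M ≃o L'.Substructure M') (hstr : ∀ S, str' (E S) ↔ str S)
    (f : M ≃ M') (hf : ∀ S x, f x ∈ E S ↔ x ∈ S)
    {S : L.Substructure M} {X : Type u} {A : Finset X → L.Substructure M} :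
    FrameOf str' (E S) (fun s => E (A s)) ↔ FrameOf str S A := by
  refine and_congr (frameIn_iso E hstr) ?_
  rw [f.surjective.forall]
  exact forall_congr' fun x => by simp only [hf]

theorem hasFrames_of_iso {aut : (M ≃[L] M) → Prop} {aut' : (M' ≃[L'] M') → Prop}
    {l : Cardinal.{u}}
    (E : L.Substructure M ≃o L'.Substructure M') (hstr : ∀ S, str' (E S) ↔ str S)
    (f : M ≃ M') (hf : ∀ S x, f x ∈ E S ↔ x ∈ S)
    (haut : ∀ σ : M ≃[L] M, aut σ → ∃ σ' : M' ≃[L'] M', aut' σ' ∧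
      ∀ S : L.Substructure M, (E S).map σ'.toHom = E (S.map σ.toHom))
    (h : HasFrames l str aut) : HasFrames l str' aut' := by
  obtain ⟨h1, h2, h3⟩ := h
  have htop : E ⊤ = ⊤ := E.map_top
  have hcard : ∀ S : L.Substructure M, #(E S) = #S := by
    intro S
    have h1 : ((E S : L'.Substructure M') : Set M') = f '' (S : Set M) := by
      ext y
      obtain ⟨x, rfl⟩ := f.surjective y
      constructor
      · intro h
        exact ⟨x, (hf S x).1 h, rfl⟩
      · rintro ⟨z, hz, hzx⟩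
        rw [← f.injective hzx]
        exact (hf S z).2 hz
    have h2 : #((E S : L'.Substructure M') : Set M') = #(S : Set M) := by
      rw [h1]
      exact mk_image_eq f.injective
    exact h2
  have himg : ∀ {X : Type u} (A : Finset X → L'.Substructure M'),
      (fun s => E (E.symm (A s))) = A := fun A => by
    funext s
    exact E.apply_symm_apply _
  refine ⟨?_, ?_, ?_⟩
  · intro S hS hlS
    obtain ⟨S, rfl⟩ := E.surjective S
    obtain ⟨X, A, hA⟩ := h1 S ((hstr S).1 hS) (by rwa [hcard] at hlS)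
    exact ⟨X, fun s => E (A s), (frameOf_iso E hstr f hf).2 hA⟩
  · intro S T hS hT hlS hST X A hA
    obtain ⟨S, rfl⟩ := E.surjective S
    obtain ⟨T, rfl⟩ := E.surjective T
    rw [← himg A] at hA
    obtain ⟨Y, j, B, h4, h5⟩ := h2 S T ((hstr S).1 hS) ((hstr T).1 hT) (by rwa [hcard] at hlS)
      (E.le_iff_le.1 hST) X _ ((frameIn_iso E hstr).1 hA)
    refine ⟨Y, j, fun s => E (B s), (frameOf_iso E hstr f hf).2 h4, fun s => ?_⟩
    change E (B (s.map j)) = A s
    rw [h5, E.apply_symm_apply]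
  · intro X Y A B hA hB
    rw [← himg A, ← htop] at hA
    rw [← himg B, ← htop] at hB
    obtain ⟨σ, j, h4, h5⟩ := h3 X Y _ _ ((frameOf_iso E hstr f hf).1 hA)
      ((frameOf_iso E hstr f hf).1 hB)
    obtain ⟨σ', h6, h7⟩ := haut σ h4
    refine ⟨σ', j, h6, fun s => ?_⟩
    have h8 := h7 (E.symm (A s))
    rw [E.apply_symm_apply, h5, E.apply_symm_apply] at h8
    exact h8

end

theorem isFramed_of_part_eq {L : Language.{u, u}} {Λ : Type u} {K₁ K₂ : AEC L}
    {l : Cardinal.{u}}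
    (h : K₁.part Λ = K₂.part Λ) (hK₁ : K₁.IsLS #Λ) (hK₂ : K₂.IsLS #Λ) {M : Type u}
    [L.Structure M] (hB : IsFramed K₁ l M) : IsFramed K₂ l M := by
  have h1 : (fun S : L.Substructure M => K₁.le S) = fun S : L.Substructure M => K₂.le S := by
    funext S
    exact propext ⟨Ow.le_of_part_eq' h hK₁, Ow.le_of_part_eq' h.symm hK₂⟩
  unfold IsFramed at hB ⊢
  rwa [← h1]

theorem isFramed_of_equiv {L : Language.{u, u}} {K : AEC L} {M N : Type u} [L.Structure M]
    [L.Structure N] {l : Cardinal.{u}} (i : M ≃[L] N) (hM : K.mem M) (h : IsFramed K l M) :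
    IsFramed K l N := by
  have hN : K.mem N := K.mem_iso i hM
  refine hasFrames_of_iso (mapIso i) (fun S => ?_) i.toEquiv (fun S x => ?_) (fun σ _ => ?_) h
  · constructor
    · intro h1
      have h2 := Ow.le_map i.symm.toEmbedding (AEC.Emb.of_equiv i.symm hN) h1
      have h3 : (S.map i.toHom).map i.symm.toEmbedding.toHom = S := map_symm_map i S
      have h4 : (mapIso i S).map i.symm.toEmbedding.toHom = S := h3
      rwa [h4] at h2
    · intro h1
      exact Ow.le_map i.toEmbedding (AEC.Emb.of_equiv i hM) h1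
  · constructor
    · rintro ⟨y, hy, hyx⟩
      have h1 : i y = i x := hyx
      rwa [← i.injective h1]
    · intro hx
      exact ⟨x, hx, rfl⟩
  · refine ⟨i.comp (σ.comp i.symm), trivial, fun S => ?_⟩
    change (S.map i.toHom).map (i.comp (σ.comp i.symm)).toHom = (S.map σ.toHom).map i.toHom
    have hτ : ∀ y, (i.comp (σ.comp i.symm)) (i y) = i (σ y) := by
      intro y
      change i (σ (i.symm (i y))) = i (σ y)
      rw [i.symm_apply_apply]
    ext x
    constructor
    · rintro ⟨_, ⟨y, hy, rfl⟩, rfl⟩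
      exact ⟨σ y, ⟨y, hy, rfl⟩, (hτ y).symm⟩
    · rintro ⟨_, ⟨y, hy, rfl⟩, rfl⟩
      exact ⟨i y, ⟨y, hy, rfl⟩, hτ y⟩

section up

variable {L L' : Language.{u, u}} {φ : L →ᴸ L'}

theorem isFramed_up (K : AEC L) (hf : ∀ n, Function.Bijective (φ.onFunction (n := n)))
    (hr : ∀ n, Function.Surjective (φ.onRelation (n := n))) (M : Type u) [L'.Structure M]
    {l : Cardinal.{u}} : IsFramed (K.up φ hf hr) l M ↔ IsFramed K l (Dn φ M) := by
  constructor
  · intro h
    refine hasFrames_of_iso (dnIso hf M) (fun S => Iff.rfl) (Equiv.refl M)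
      (fun S x => Iff.rfl) (fun σ _ => ?_) h
    refine ⟨dnEquiv φ σ, trivial, fun S => ?_⟩
    ext x
    exact Iff.rfl
  · intro h
    refine hasFrames_of_iso (dnIso hf M).symm (fun S => ?_) (Equiv.refl (Dn φ M))
      (fun S x => ?_) (fun σ _ => ?_) h
    · change K.le (dnIso hf M ((dnIso hf M).symm S)) ↔ K.le S
      rw [OrderIso.apply_symm_apply]
    · have hS : dn φ ((dnIso hf M).symm S) = S := (dnIso hf M).apply_symm_apply S
      have h1 : x ∈ dn φ ((dnIso hf M).symm S) ↔ x ∈ S := by rw [hS]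
      exact h1
    · refine ⟨upEquiv hf hr σ, trivial, fun S => ?_⟩
      apply (dnIso hf M).injective
      rw [OrderIso.apply_symm_apply]
      have hS : dn φ ((dnIso hf M).symm S) = S := (dnIso hf M).apply_symm_apply S
      have h1 : (dn φ ((dnIso hf M).symm S)).map σ.toHom = S.map σ.toHom := by rw [hS]
      refine Eq.trans ?_ h1
      ext x
      exact Iff.rfl

end up

/-- The cardinalities of the members with frames of the classes with a given code. -/
def rspec {Λ : Type u} (l : Cardinal.{u}) (c : CodeTy Λ) : Set Cardinal.{u} :=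
  {κ | ∃ K : AEC (canLang c.1.1 c.1.2), K.IsLS #Λ ∧ K.part Λ = c.2 ∧
    ∃ (M : Type u) (_ : (canLang c.1.1 c.1.2).Structure M), K.mem M ∧ #M = κ ∧
      IsFramed K l M}

theorem exists_rcode {Λ : Type u} {L : Language.{u, u}} (l : Cardinal.{u}) (K : AEC L)
    (hK : K.IsLS #Λ) :
    ∃ c : CodeTy Λ, ∀ κ, κ ∈ rspec l c ↔ ∃ (M : Type u) (_ : L.Structure M), K.mem M ∧
      #M = κ ∧ IsFramed K l M := by
  obtain ⟨A, B, φ, hf, hr⟩ := exists_canLang L Λ hK.2.1
  let K' : AEC (canLang A B) := K.up φ hf (fun n => (hr n).2)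
  have hK' : K'.IsLS #Λ := AEC.up_isLS hf (fun n => (hr n).2) hK
  refine ⟨⟨(A, B), K'.part Λ⟩, fun κ => ?_⟩
  constructor
  · rintro ⟨K'', h1, h2, M, _, h3, h4, h5⟩
    have h6 : IsFramed K' l M := isFramed_of_part_eq h2 h1 hK' h5
    exact ⟨Dn φ M, inferInstance, mem_of_part_eq h2 h1 h3, h4,
      (isFramed_up K hf (fun n => (hr n).2) M).1 h6⟩
  · rintro ⟨M, _, h3, h4, h5⟩
    obtain ⟨s, ⟨e⟩⟩ := exists_expand hf hr M
    have h6 : K.mem (Dn φ M) := K.mem_iso e h3
    have h7 : IsFramed K l (Dn φ M) := isFramed_of_equiv e h3 h5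
    exact ⟨K', hK', rfl, M, s, h6, h4, (isFramed_up K hf (fun n => (hr n).2) M).2 h7⟩

/-- The Hanf number for members with frames at a categoricity cardinal. -/
theorem exists_mu_framed (l : Cardinal.{u}) : ∃ μ : Cardinal.{u}, ∀ (L : Language.{u, u})
    (K : AEC L), K.LS ≤ l → ∀ κ : Cardinal.{u}, μ ≤ κ → K.CategoricalIn κ →
      (∃ (M : Type u) (_ : L.Structure M), K.mem M ∧ #M = κ ∧ IsFramed K l M) →
        ∀ a : Cardinal.{u}, ∃ κ' : Cardinal.{u}, a ≤ κ' ∧ K.CategoricalIn κ' ∧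
          ∃ (M : Type u) (_ : L.Structure M), K.mem M ∧ #M = κ' ∧ IsFramed K l M := by
  obtain ⟨Λ, hΛ⟩ : ∃ Λ : Type u, #Λ = l := ⟨l.out, mk_out l⟩
  have h : ∀ c : CodeTy Λ × CodeTy Λ, ∃ b : Cardinal.{u},
      (∀ κ, κ ∈ spec c.1 → κ ∈ rspec l c.2 → κ ≤ b) ∨
      ∀ b', ∃ κ, (κ ∈ spec c.1 ∧ κ ∈ rspec l c.2) ∧ b' < κ := by
    intro c
    by_cases hb : ∃ b : Cardinal.{u}, ∀ κ, κ ∈ spec c.1 → κ ∈ rspec l c.2 → κ ≤ b
    · obtain ⟨b, hb⟩ := hb
      exact ⟨b, Or.inl hb⟩
    · push Not at hb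
      refine ⟨0, Or.inr fun b' => ?_⟩
      obtain ⟨κ, h1, h2, h3⟩ := hb b'
      exact ⟨κ, ⟨h1, h2⟩, h3⟩
  choose b hb using h
  have hbdd : BddAbove (Set.range b) := bddAbove_of_small
  refine ⟨Order.succ (⨆ c, b c), ?_⟩
  intro L K hK κ hκ hcat hM a
  have hLS : K.IsLS #Λ := AEC.isLS_of_LS_le (hK.trans hΛ.ge)
  obtain ⟨c, hc, -⟩ := exists_code (Λ := Λ) K hLS
  obtain ⟨d, hd⟩ := exists_rcode (Λ := Λ) l K hLS
  rcases hb (c, d) with h4 | h4
  · exfalso
    have h5 : κ ≤ b (c, d) := h4 _ ((hc _).2 hcat) ((hd _).2 hM)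
    have h6 : b (c, d) < κ := (Order.lt_succ_of_le (le_ciSup hbdd (c, d))).trans_le hκ
    exact absurd h5 (not_le.2 h6)
  · obtain ⟨κ', ⟨h5, h6⟩, h7⟩ := h4 a
    exact ⟨κ', h7.le, (hc κ').1 h5, (hd κ').1 h6⟩

/-- Q1 for the classes with one large categoricity cardinal whose member has frames, from the
eventual statement. -/
theorem q1_framed_of
    (hE : ∀ {l : Cardinal.{u}} {L : Language.{u, u}} (K : AEC L), K.IsLS l →
      (∀ χ : Cardinal.{u}, ∃ κ : Cardinal.{u}, χ ≤ κ ∧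
      K.CategoricalIn κ ∧ ∃ (M : Type u) (_ : L.Structure M), K.mem M ∧ #M = κ ∧
        IsFramed K l M) →
        ∃ χ : Cardinal.{u}, ∀ κ, χ ≤ κ → K.CategoricalIn κ) (l : Cardinal.{u}) :
    ∃ μ : Cardinal.{u}, l ≤ μ ∧ ∀ (L : Language.{u, u}) (K : AEC L), K.LS ≤ l →
      ∀ κ : Cardinal.{u}, μ ≤ κ → K.CategoricalIn κ →
        (∃ (M : Type u) (_ : L.Structure M), K.mem M ∧ #M = κ ∧ IsFramed K l M) →
          ∀ κ' : Cardinal.{u}, μ ≤ κ' → K.CategoricalIn κ' := by
  obtain ⟨μ₀, hμ₀, hμ⟩ := H67.exists_threshold l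
  obtain ⟨μ₁, hμ₁⟩ := exists_mu_framed l
  refine ⟨max μ₀ μ₁, hμ₀.trans (le_max_left _ _), ?_⟩
  intro L K hK κ hκ hcat hM κ' hκ'
  exact hμ L K hK (hE K (AEC.isLS_of_LS_le hK)
    (hμ₁ L K hK κ ((le_max_right _ _).trans hκ) hcat hM)) κ' ((le_max_left _ _).trans hκ')

end Vale.Agent.P307.Fm
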