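import Vale.Agent.P307.Fm.Sys
import Vale.Agent.P307.Ew.Fam

/-! The family of the unions of the frames of a functor from linear orders. -/

universe u

open FirstOrder Cardinal Set Function Language

namespace Vale.Agent.P307.Fm

open H479.E (kle)
open Ow (le_map le_comap map_comap map_le_range)
open H227 (inc incl lft rgt)
open Ew (exists_fin mem_map_iff)

variable {L : Language.{u, u}} {K : AEC L}

section

variable {M N : Type u} [L.Structure M] [L.Structure N]

theorem map_le_map_iff (φ : M ↪[L] N) {S T : L.Substructure M} :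
    S.map φ.toHom ≤ T.map φ.toHom ↔ S ≤ T := by
  constructor
  · intro h x hx
    have h1 := h ((mem_map_iff φ).2 hx)
    exact (mem_map_iff φ).1 h1
  · rintro h _ ⟨x, hx, rfl⟩
    exact ⟨x, h hx, rfl⟩

theorem map_inf' (φ : M ↪[L] N) (S T : L.Substructure M) :
    S.map φ.toHom ⊓ T.map φ.toHom = (S ⊓ T).map φ.toHom := by
  ext y
  constructor
  · rintro ⟨⟨x, hx, rfl⟩, h2⟩
    exact ⟨x, ⟨hx, (mem_map_iff φ).1 h2⟩, rfl⟩
  · rintro ⟨x, ⟨h1, h2⟩, rfl⟩
    exact ⟨⟨x, h1, rfl⟩, ⟨x, h2, rfl⟩⟩

theorem map_inj' (φ : M ↪[L] N) {S T : L.Substructure M} (h : S.map φ.toHom = T.map φ.toHom) :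
    S = T :=
  le_antisymm ((map_le_map_iff φ).1 h.le) ((map_le_map_iff φ).1 h.ge)

/-- Frames are preserved and reflected by strong embeddings. -/
theorem frameIn_map_iff (φ : M ↪[L] N) (hφ : K.Emb φ) {S : L.Substructure M} {X : Type u}
    {A : Finset X → L.Substructure M} :
    FrameIn (kle K N) (S.map φ.toHom) (fun s => (A s).map φ.toHom) ↔ FrameIn (kle K M) S A := by
  have hle : ∀ S : L.Substructure M, K.le (S.map φ.toHom) ↔ K.le S := fun S =>
    H479.E.le_map_iff φ hφ
  constructor
  · rintro ⟨h1, h2, h3, h4⟩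
    refine ⟨fun s => ⟨(hle _).1 (h1 s).1, (map_le_map_iff φ).1 (h1 s).2⟩, fun s t r hr => ?_,
      fun s t hst => h3 s t ((map_le_map_iff φ).2 hst), fun s V hV hVs ht => ?_⟩
    · apply map_inj' φ
      rw [← map_inf']
      exact h2 s t r hr
    · rcases h4 s _ ((hle V).2 hV) ((map_le_map_iff φ).2 hVs) fun t hts =>
        (map_le_map_iff φ).2 (ht t hts) with h5 | ⟨t, h5, h6⟩
      · exact Or.inl (map_inj' φ h5)
      · exact Or.inr ⟨t, h5, map_inj' φ h6⟩
  · rintro ⟨h1, h2, h3, h4⟩
    refine ⟨fun s => ⟨(hle _).2 (h1 s).1, (map_le_map_iff φ).2 (h1 s).2⟩, fun s t r hr => ?_,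
      fun s t hst => h3 s t ((map_le_map_iff φ).1 hst), fun s V hV hVs ht => ?_⟩
    · change (A s).map φ.toHom ⊓ (A t).map φ.toHom = (A r).map φ.toHom
      rw [map_inf', h2 s t r hr]
    · have h5 : V ≤ φ.toHom.range := hVs.trans (map_le_range φ _)
      have h6 : (V.comap φ.toHom).map φ.toHom = V := map_comap φ h5
      have h7 : V.comap φ.toHom = A s ∨ ∃ t, t ⊂ s ∧ V.comap φ.toHom = A t := by
        refine h4 s _ (le_comap φ hφ hV h5) ?_ fun t hts => ?_
        · rw [← map_le_map_iff φ, h6]
          exact hVs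
        · rw [← map_le_map_iff φ, h6]
          exact ht t hts
      rcases h7 with h7 | ⟨t, h8, h7⟩
      · left
        change V = (A s).map φ.toHom
        rw [← h7, h6]
      · right
        refine ⟨t, h8, ?_⟩
        change V = (A t).map φ.toHom
        rw [← h7, h6]

end

theorem FrameIn.mono {M : Type u} [L.Structure M] {str : L.Substructure M → Prop}
    {S : L.Substructure M} {X : Type u} {A : Finset X → L.Substructure M}
    (h : FrameIn str S A) {s t : Finset X} (hst : s ⊆ t) : A s ≤ A t := by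
  rw [← h.2.1 s t s fun x => ⟨fun hx => ⟨hx, hst hx⟩, fun hx => hx.1⟩]
  exact inf_le_right

variable (P : LocSys K)

theorem mem_obj (I : Type u) [LinearOrder I] : K.mem (P.obj I) :=
  (P.emb (RelEmbedding.refl (· ≤ ·) : I ↪o I)).mem_left

/-- The finite subsets of an order come from a finite order. -/
theorem exists_cover {I : Type u} [LinearOrder I] (s : Finset I) :
    ∃ (n : ℕ) (f : ULift.{u} (Fin n) ↪o I), ∀ t : Finset I, t ⊆ s →
      ∃ t' : Finset (ULift.{u} (Fin n)), t = t'.map f.toEmbedding := by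
  classical
  obtain ⟨n, f, hf⟩ := exists_fin s
  refine ⟨n, f, fun t ht => ?_⟩
  refine ⟨t.preimage f f.injective.injOn, ?_⟩
  ext x
  simp only [Finset.mem_map, Finset.mem_preimage]
  constructor
  · intro hx
    have h1 : x ∈ range f := by
      rw [hf]
      exact ht hx
    obtain ⟨y, rfl⟩ := h1
    exact ⟨y, hx, rfl⟩
  · rintro ⟨y, hy, rfl⟩
    exact hy

theorem frame_all (I : Type u) [LinearOrder I] : FrameIn (kle K (P.obj I)) ⊤ (P.U I) := by
  classical
  have key : ∀ (s : Finset I) (q : (Finset I → L.Substructure (P.obj I)) → Prop),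
      (∀ (n : ℕ) (f : ULift.{u} (Fin n) ↪o I),
        (∀ t : Finset I, t ⊆ s → ∃ t' : Finset (ULift.{u} (Fin n)), t = t'.map f.toEmbedding) →
        FrameIn (kle K (P.obj I)) ((⊤ : L.Substructure (P.obj (ULift.{u} (Fin n)))).map
          (P.map f).toHom) (fun s' => P.U I (s'.map f.toEmbedding)) → q (P.U I)) → q (P.U I) := by
    intro s q hq
    obtain ⟨n, f, hf⟩ := exists_cover s
    refine hq n f hf ?_
    have h1 := (frameIn_map_iff (P.map f) (P.emb f)).2 (P.frame n)
    have h2 : (fun s' => (P.U (ULift.{u} (Fin n)) s').map (P.map f).toHom) =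
        fun s' => P.U I (s'.map f.toEmbedding) := by
      funext s'
      exact P.map_U f s'
    rwa [h2] at h1
  have hsub : ∀ {n : ℕ} (f : ULift.{u} (Fin n) ↪o I) {s t : Finset (ULift.{u} (Fin n))},
      s.map f.toEmbedding ⊆ t.map f.toEmbedding ↔ s ⊆ t := fun f => Finset.map_subset_map
  refine ⟨fun s => ?_, fun s t r hr => ?_, fun s t => ?_, fun s V => ?_⟩
  · refine key s (fun U => K.le (U s) ∧ U s ≤ ⊤) fun n f hf h => ?_
    obtain ⟨s', rfl⟩ := hf s (Finset.Subset.refl _)
    exact ⟨(h.1 s').1, le_top⟩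
  · refine key (s ∪ t ∪ r) (fun U => U s ⊓ U t = U r) fun n f hf h => ?_
    obtain ⟨s', rfl⟩ := hf s (Finset.subset_union_left.trans Finset.subset_union_left)
    obtain ⟨t', rfl⟩ := hf t (Finset.subset_union_right.trans Finset.subset_union_left)
    obtain ⟨r', rfl⟩ := hf r Finset.subset_union_right
    refine h.2.1 s' t' r' fun x => ?_
    have h1 := hr (f x)
    have h2 : ∀ u : Finset (ULift.{u} (Fin n)), f x ∈ u.map f.toEmbedding ↔ x ∈ u := fun u =>
      Finset.mem_map' f.toEmbedding
    rwa [h2, h2, h2] at h1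
  · refine key (s ∪ t) (fun U => U s ≤ U t → s ⊆ t) fun n f hf h => ?_
    obtain ⟨s', rfl⟩ := hf s Finset.subset_union_left
    obtain ⟨t', rfl⟩ := hf t Finset.subset_union_right
    intro h1
    exact (hsub f).2 (h.2.2.1 s' t' h1)
  · refine key s (fun U => K.le V → V ≤ U s → (∀ t, t ⊂ s → U t ≤ V) →
      V = U s ∨ ∃ t, t ⊂ s ∧ V = U t) fun n f hf h => ?_
    obtain ⟨s', rfl⟩ := hf s (Finset.Subset.refl _)
    intro h1 h2 h3
    have hss : ∀ t, t ⊂ s' → t.map f.toEmbedding ⊂ s'.map f.toEmbedding := by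
      intro t ht
      rw [Finset.ssubset_iff_subset_ne] at ht ⊢
      exact ⟨(hsub f).2 ht.1, fun h4 => ht.2 (Finset.map_injective _ h4)⟩
    rcases h.2.2.2 s' V h1 h2 fun t ht => h3 _ (hss t ht) with h4 | ⟨t, h4, h5⟩
    · exact Or.inl h4
    · exact Or.inr ⟨t.map f.toEmbedding, hss t h4, h5⟩

/-- The union of a frame over a set of indices. -/
def span (I : Type u) [LinearOrder I] (A : Set I) : L.Substructure (P.obj I) :=
  ⨆ s : Finset A, P.U I (s.map (Embedding.subtype _))

theorem span_mono_aux (I : Type u) [LinearOrder I] (A : Set I) :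
    Monotone fun s : Finset A => P.U I (s.map (Embedding.subtype _)) := fun _ _ h =>
  (frame_all P I).mono (Finset.map_subset_map.2 h)

theorem le_span (I : Type u) [LinearOrder I] (A : Set I) : K.le (span P I A) :=
  AEC.le_iSup_finset _ (span_mono_aux P I A) fun _ => ((frame_all P I).1 _).1

theorem mem_span {I : Type u} [LinearOrder I] {A : Set I} {a : P.obj I} :
    a ∈ span P I A ↔ ∃ s : Finset I, (s : Set I) ⊆ A ∧ a ∈ P.U I s := by
  classical
  rw [span, Substructure.mem_iSup_of_directed (directed_of_isDirected_le (span_mono_aux P I A))]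
  constructor
  · rintro ⟨s, hs⟩
    refine ⟨_, ?_, hs⟩
    intro x hx
    simp only [Finset.coe_map, Embedding.subtype_apply, mem_image] at hx
    obtain ⟨y, -, rfl⟩ := hx
    exact y.2
  · rintro ⟨s, hs, ha⟩
    refine ⟨s.subtype (· ∈ A), ?_⟩
    rwa [Finset.subtype_map_of_mem fun x hx => hs hx]

theorem span_finset {I : Type u} [LinearOrder I] (s : Finset I) :
    span P I (s : Set I) = P.U I s := by
  ext a
  rw [mem_span]
  constructor
  · rintro ⟨t, ht, ha⟩
    exact (frame_all P I).mono (Finset.coe_subset.1 ht) ha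
  · intro ha
    exact ⟨s, subset_rfl, ha⟩

theorem span_mono (I : Type u) [LinearOrder I] {A B : Set I} (h : A ⊆ B) :
    span P I A ≤ span P I B := by
  intro a ha
  obtain ⟨s, h1, h2⟩ := (mem_span P).1 ha
  exact (mem_span P).2 ⟨s, h1.trans h, h2⟩

theorem span_le (I : Type u) [LinearOrder I] {A B : Set I} (h : span P I A ≤ span P I B) :
    A ⊆ B := by
  classical
  intro a ha
  by_contra hb
  have h1 : ¬ P.U I {a} ≤ P.U I ∅ := fun h2 => by
    have h3 := (frame_all P I).2.2.1 _ _ h2
    exact absurd (h3 (Finset.mem_singleton_self a)) (Finset.notMem_empty a)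
  obtain ⟨x, hx, hx2⟩ := SetLike.not_le_iff_exists.1 h1
  have h2 : x ∈ span P I A := (mem_span P).2 ⟨{a}, by simpa using ha, hx⟩
  obtain ⟨s, h3, h4⟩ := (mem_span P).1 (h h2)
  apply hx2
  rw [← (frame_all P I).2.1 {a} s ∅ fun y => ?_]
  · exact ⟨hx, h4⟩
  · constructor
    · intro hy
      exact absurd hy (Finset.notMem_empty y)
    · rintro ⟨h5, h6⟩
      rw [Finset.mem_singleton] at h5
      subst h5
      exact absurd (h3 h6) hb

theorem map_span {I J : Type u} [LinearOrder I] [LinearOrder J] (f : I ↪o J) (A : Set I) :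
    (span P I A).map (P.map f).toHom = span P J (f '' A) := by
  classical
  ext y
  constructor
  · rintro ⟨x, hx, rfl⟩
    obtain ⟨s, h1, h2⟩ := (mem_span P).1 hx
    refine (mem_span P).2 ⟨s.map f.toEmbedding, ?_, ?_⟩
    · rw [Finset.coe_map]
      exact image_mono h1
    · rw [← P.map_U]
      exact ⟨x, h2, rfl⟩
  · intro hy
    obtain ⟨s, h1, h2⟩ := (mem_span P).1 hy
    obtain ⟨t, h3, h4⟩ := Finset.subset_set_image_iff.1 h1
    have h5 : s = t.map f.toEmbedding := by
      rw [← h4]
      ext z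
      simp
    rw [h5, ← P.map_U] at h2
    obtain ⟨x, hx, hxy⟩ := h2
    exact ⟨x, (mem_span P).2 ⟨t, h3, hx⟩, hxy⟩

include P in
theorem exists_fam_of_sys : ∃ F : Pw.Fam K, ∀ (I : Type u) [LinearOrder I],
    FrameOf (fun S : L.Substructure (F.obj I) => K.le S) ⊤
      (fun s : Finset I => F.sub (s : Set I)) := by
  classical
  let T : ∀ (I : Type u) [LinearOrder I], L.Substructure (P.obj I) := fun I lo =>
    span P I Set.univ
  have hT : ∀ (I : Type u) [LinearOrder I], K.le (T I) := fun I lo => le_span P I _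
  have hmaps : ∀ {I J : Type u} [LinearOrder I] [LinearOrder J] (i : I ↪o J) (a : T I),
      P.map i a.1 ∈ T J := by
    intro I J lo lo' i a
    have h1 : P.map i a.1 ∈ (T I).map (P.map i).toHom := ⟨a.1, a.2, rfl⟩
    rw [map_span] at h1
    exact span_mono P J (subset_univ _) h1
  let m : ∀ {I J : Type u} [LinearOrder I] [LinearOrder J] (_ : I ↪o J), (T I ↪[L] T J) :=
    fun {I J} _ _ i => Embedding.codRestrict (T J) ((P.map i).comp (T I).subtype) (hmaps i)
  have hrange : ∀ (I : Type u) [lo : LinearOrder I] (A : Set I),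
      (m (OrderEmbedding.subtype (· ∈ A))).toHom.range.map (T I).subtype.toHom =
        span P I A := by
    intro I lo A
    have h1 := map_span P (OrderEmbedding.subtype (· ∈ A)) Set.univ
    have h2 : OrderEmbedding.subtype (· ∈ A) '' Set.univ = A := by
      rw [image_univ]
      exact Subtype.range_coe
    rw [h2] at h1
    rw [← h1]
    ext y
    constructor
    · rintro ⟨_, ⟨z, rfl⟩, rfl⟩
      exact ⟨z.1, z.2, rfl⟩
    · rintro ⟨z, hz, rfl⟩
      exact ⟨_, ⟨⟨z, hz⟩, rfl⟩, rfl⟩
  have hEmb : ∀ (I : Type u) [LinearOrder I], K.Emb (T I).subtype := fun I _ =>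
    AEC.emb_subtype.2 (hT I)
  have hmem : ∀ (I : Type u) [lo : LinearOrder I] (A : Set I) (a : T I), a.1 ∈ span P I A →
      a ∈ (m (OrderEmbedding.subtype (· ∈ A))).toHom.range := by
    intro I lo A a ha
    rw [← hrange] at ha
    obtain ⟨y, hy, hya⟩ := ha
    have h2 : y = a := Subtype.ext hya
    rw [← h2]
    exact hy
  let F : Pw.Fam K :=
    { obj := fun I _ => T I, str := fun I _ => inferInstance, map := fun i => m i
      map_refl := fun a => Subtype.ext (P.map_refl _)
      map_trans := fun i j a => Subtype.ext (P.map_trans _ _ _)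
      emb_map := by
        intro I J _ _ i
        refine AEC.Emb.of_comp (hEmb J) ?_
        have h1 : (T J).subtype.comp (m i) = (P.map i).comp (T I).subtype := by
          apply Language.Embedding.ext
          intro x
          rfl
        rw [h1]
        exact AEC.Emb.comp (P.emb i) (hEmb I)
      mono := by
        intro I lo A B hAB
        have h1 := Substructure.monotone_map (f := (T I).subtype.toHom) hAB
        rw [hrange, hrange] at h1
        exact span_le P I h1
      fin := by
        intro I lo a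
        obtain ⟨s, -, h2⟩ := (mem_span P).1 a.2
        refine ⟨(s : Set I), s.finite_toSet, hmem I _ a ?_⟩
        rw [span_finset]
        exact h2 }
  refine ⟨F, fun I lo => ?_⟩
  have hsub : ∀ A : Set I, (F.sub A).map (T I).subtype.toHom = span P I A := fun A => hrange I A
  constructor
  · rw [← frameIn_map_iff (T I).subtype (hEmb I)]
    have h2 : (fun s : Finset I => (F.sub (s : Set I)).map (T I).subtype.toHom) = P.U I := by
      funext s
      exact (hsub _).trans (span_finset P s)
    have h3 : FrameIn (kle K (P.obj I))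
        ((⊤ : L.Substructure (T I)).map (T I).subtype.toHom) (P.U I) := by
      have h4 := frame_all P I
      refine ⟨fun s => ⟨(h4.1 s).1, fun x hx => ?_⟩, h4.2⟩
      exact ⟨⟨x, (mem_span P).2 ⟨s, subset_univ _, hx⟩⟩, trivial, rfl⟩
    have h5 : FrameIn (kle K (P.obj I))
        ((⊤ : L.Substructure (T I)).map (T I).subtype.toHom)
        (fun s : Finset I => (F.sub (s : Set I)).map (T I).subtype.toHom) := by
      rw [h2]
      exact h3
    exact h5
  · intro a _
    obtain ⟨s, -, h2⟩ := (mem_span P).1 a.2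
    refine ⟨s, hmem I _ a ?_⟩
    rw [span_finset]
    exact h2

end Vale.Agent.P307.Fm
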