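import Vale.Agent.P307.Fm.Code
import Vale.Agent.P307.Fm.Fam
import Vale.Agent.P307.H227.Lg

/-! Categoricity transfer for classes with frames, over the existence of the functor and of the
standard position. -/

universe u

open FirstOrder Cardinal Set Function Language

namespace Vale.Agent.P307.Fm

open H479.E (kle)

theorem eventually_of_framed_of
    (hSys : ∀ {L : Language.{u, u}} {K : AEC L} {ℓ : Cardinal.{u}} (_ : K.IsLS ℓ) {M₀ : Type u}
      [L.Structure M₀] (_ : K.mem M₀) {X : Type u} {A : Finset X → L.Substructure M₀}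
      (_ : FrameOf (kle K M₀) ⊤ A) (_ : hanf (2 ^ ℓ) ≤ #M₀) (_ : ℓ < #M₀),
      Nonempty (LocSys K))
    (hStd : ∀ {L : Language.{u, u}} {K : AEC L} {F : Pw.Fam K} {l l' κ : Cardinal.{u}}
      (_ : F.Ok l) (_ : l' ≤ l) (_ : max l ℵ₀ < κ)
      (_ : ∀ (I : Type u) [LinearOrder I],
        FrameOf (fun S : L.Substructure (F.obj I) => K.le S) ⊤
          (fun s : Finset I => F.sub (s : Set I)))
      (_ : K.CategoricalIn κ)
      (_ : ∃ (M : Type u) (_ : L.Structure M), K.mem M ∧ #M = κ ∧ IsFramed K l' M),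
      F.StdAtL l κ ∧ F.ConjAtL l κ)
    {l : Cardinal.{u}} {L : Language.{u, u}} (K : AEC L) (hK : K.IsLS l)
    (h : ∀ χ : Cardinal.{u}, ∃ κ : Cardinal.{u}, χ ≤ κ ∧
      K.CategoricalIn κ ∧ ∃ (M : Type u) (_ : L.Structure M), K.mem M ∧ #M = κ ∧
        IsFramed K l M) :
    ∃ χ : Cardinal.{u}, ∀ κ, χ ≤ κ → K.CategoricalIn κ := by
  obtain ⟨κ, h1, -, M, _, h2, h3, h4⟩ := h (max (hanf (2 ^ l)) (Order.succ l))
  have hl : l < #M := by
    rw [h3]
    exact Order.succ_le_iff.1 ((le_max_right _ _).trans h1)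
  obtain ⟨X, A, hA⟩ := h4.1 ⊤ (K.le_refl h2) (by
    have h5 : #(⊤ : L.Substructure M) = #M := mk_congr (Equiv.Set.univ M)
    rw [h5]
    exact hl.le)
  obtain ⟨P⟩ := hSys hK h2 hA (by
    rw [h3]
    exact (le_max_left _ _).trans h1) hl
  obtain ⟨F, hF⟩ := exists_fam_of_sys P
  obtain ⟨l₀, hl₀⟩ := F.exists_ok
  have hOk : F.Ok (max l₀ l) :=
    ⟨⟨hl₀.ls.1.trans (le_max_left _ _), hl₀.ls.2.1.trans (le_max_left _ _), fun N _ hN A => by
      obtain ⟨S, h5, h6, h7⟩ := hl₀.ls.2.2 N hN A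
      exact ⟨S, h5, h6, h7.trans (add_le_add_right (le_max_left _ _) _)⟩⟩,
      fun n => (hl₀.bd n).trans (le_max_left _ _)⟩
  refine Pw.eventually_of_stdAtL F hOk fun χ => ?_
  obtain ⟨κ, h5, h6, h7⟩ := h (max χ (Order.succ (max (max l₀ l) ℵ₀)))
  have h8 := hStd hOk (le_max_right _ _)
    (Order.succ_le_iff.1 ((le_max_right _ _).trans h5)) hF h6 h7
  exact ⟨κ, (le_max_left _ _).trans h5, h6, h8.1, h8.2⟩

end Vale.Agent.P307.Fm
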