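import Vale.Agent.P307.Fm.Glue
import Vale.Agent.P307.H4.FStd

/-! Categoricity transfer for classes with frames, over the existence of the functor. -/

universe u

open FirstOrder Cardinal Set Function Language

namespace Vale.Agent.P307.Fm

open H479.E (kle)

/-- Q1 for the classes with one large categoricity cardinal whose member has frames, over the
existence of the functor. -/
theorem q1_framed_of_sys
    (hSys : ∀ {L : Language.{u, u}} {K : AEC L} {ℓ : Cardinal.{u}} (_ : K.IsLS ℓ) {M₀ : Type u}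
      [L.Structure M₀] (_ : K.mem M₀) {X : Type u} {A : Finset X → L.Substructure M₀}
      (_ : FrameOf (kle K M₀) ⊤ A) (_ : hanf (2 ^ ℓ) ≤ #M₀) (_ : ℓ < #M₀),
      Nonempty (LocSys K)) (l : Cardinal.{u}) :
    ∃ μ : Cardinal.{u}, l ≤ μ ∧ ∀ (L : Language.{u, u}) (K : AEC L), K.LS ≤ l →
      ∀ κ : Cardinal.{u}, μ ≤ κ → K.CategoricalIn κ →
        (∃ (M : Type u) (_ : L.Structure M), K.mem M ∧ #M = κ ∧ IsFramed K l M) →
          ∀ κ' : Cardinal.{u}, μ ≤ κ' → K.CategoricalIn κ' :=
  q1_framed_of (fun K hK h => eventually_of_framed_of hSys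
    (fun hK hl hκ hb hcat hfr => H4.F.stdAtL_conjAtL_framed hK hl hκ hb hcat hfr) K hK h) l

end Vale.Agent.P307.Fm
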