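import Vale.Agent.P307.Fm.Defs
import Vale.Agent.P307.H479.E.Free

/-! Functors from linear orders with frames over the finite orders. -/

universe u

open FirstOrder Cardinal Set Function Language

namespace Vale.Agent.P307.Fm

open H479.E (kle)

variable {L : Language.{u, u}}

/-- A functor from linear orders with strong embeddings and a natural frame. -/
structure LocSys (K : AEC L) where
  obj : ∀ (I : Type u) [LinearOrder I], Type u
  str : ∀ (I : Type u) [LinearOrder I], L.Structure (obj I)
  map : ∀ {I J : Type u} [LinearOrder I] [LinearOrder J], (I ↪o J) → (obj I ↪[L] obj J)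
  map_refl : ∀ {I : Type u} [LinearOrder I] (a : obj I), map (RelEmbedding.refl (· ≤ ·)) a = a
  map_trans : ∀ {I J M : Type u} [LinearOrder I] [LinearOrder J] [LinearOrder M] (i : I ↪o J)
    (j : J ↪o M) (a : obj I), map (i.trans j) a = map j (map i a)
  emb : ∀ {I J : Type u} [LinearOrder I] [LinearOrder J] (f : I ↪o J), K.Emb (map f)
  U : ∀ (I : Type u) [LinearOrder I], Finset I → L.Substructure (obj I)
  map_U : ∀ {I J : Type u} [LinearOrder I] [LinearOrder J] (f : I ↪o J) (s : Finset I),
    (U I s).map (map f).toHom = U J (s.map f.toEmbedding)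
  frame : ∀ n : ℕ, FrameIn (kle K (obj (ULift.{u} (Fin n)))) ⊤ (U (ULift.{u} (Fin n)))

attribute [instance] LocSys.str

end Vale.Agent.P307.Fm
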