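import Vale.Agent.P307.Fm.Glue2
import Vale.Agent.P307.H479.E.EMS

/-! Categoricity transfer for classes whose member at a large categoricity cardinal has frames. -/

universe u

open FirstOrder Cardinal Set Function Language

namespace Vale.Agent.P307.Fm

/-- Q1 for the classes with one large categoricity cardinal whose member has frames. -/
theorem q1_framed (l : Cardinal.{u}) :
    ∃ μ : Cardinal.{u}, l ≤ μ ∧ ∀ (L : Language.{u, u}) (K : AEC L), K.LS ≤ l →
      ∀ κ : Cardinal.{u}, μ ≤ κ → K.CategoricalIn κ →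
        (∃ (M : Type u) (_ : L.Structure M), K.mem M ∧ #M = κ ∧ IsFramed K l M) →
          ∀ κ' : Cardinal.{u}, μ ≤ κ' → K.CategoricalIn κ' :=
  q1_framed_of_sys (fun hK _ _ hM₀ _ _ hA hbig hbig2 =>
    H479.E.exists_locSys hK hM₀ hA hbig hbig2) l

end Vale.Agent.P307.Fm
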